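import Vale.Agent.P099.MathlibUsed

open MeasureTheory Set Filter Topology

namespace Vale.Agent.P099

/-- A nondegenerate triangle in the Euclidean plane, identified with the complex plane. -/
structure Triangle where
  P : Fin 3 → ℂ
  indep : AffineIndependent ℝ P

namespace Triangle

variable (T : Triangle)

/-- The billiard table: the open triangle. -/
def table : Set ℂ := interior (convexHull ℝ (range T.P))

/-- The open side opposite to the vertex `i`. -/
def side (i : Fin 3) : Set ℂ := openSegment ℝ (T.P (i + 1)) (T.P (i + 2))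

/-- Specular reflection of velocities at the side `i`. -/
noncomputable def refl (i : Fin 3) (u : ℂ) : ℂ :=
  (Submodule.span ℝ {T.P (i + 2) - T.P (i + 1)}).reflection u

/-- The triangle is irrational: some angle is an irrational multiple of `π`. -/
def IsIrrational : Prop :=
  ∃ i, Irrational (EuclideanGeometry.angle (T.P (i + 1)) (T.P i) (T.P (i + 2)) / Real.pi)

end Triangle

/-- The uniform distribution of a unit direction. -/
noncomputable def nu : Measure ℂ :=
  (ProbabilityTheory.cond volume (Ioc (-Real.pi) Real.pi)).map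
    (fun θ : ℝ => Complex.exp (θ * Complex.I))

namespace Triangle

variable (T : Triangle)

/-- Uniform position in the table, uniform direction. -/
noncomputable def mu : Measure (ℂ × ℂ) :=
  (ProbabilityTheory.cond volume T.table).prod nu

/-- `γ t = (position, direction)`: straight motion at unit speed in the table, specular
reflection at the open sides, for all times. -/
def IsTrajectory (γ : ℝ → ℂ × ℂ) : Prop :=
  ∀ t, ((γ t).1 ∈ T.table ∧ ∀ᶠ s in 𝓝 t, γ s = ((γ t).1 + (s - t) • (γ t).2, (γ t).2)) ∨
    ∃ i u, (γ t).1 ∈ T.side i ∧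
      (∀ᶠ s in 𝓝[<] t, γ s = ((γ t).1 + (s - t) • u, u)) ∧
      (∀ᶠ s in 𝓝[>] t, γ s = ((γ t).1 + (s - t) • T.refl i u, T.refl i u))

/-- `Φ` is the billiard flow: almost every phase point moves along a billiard trajectory. -/
def IsBilliardFlow (Φ : ℝ → ℂ × ℂ → ℂ × ℂ) : Prop :=
  ∀ᵐ p ∂T.mu, Φ 0 p = p ∧ T.IsTrajectory (fun t => Φ t p)

end Triangle

/-- Ergodicity of a (measurable, almost everywhere defined) flow for a probability measure. -/
def FlowErgodic {X : Type} [MeasurableSpace X] (m : Measure X) (Φ : ℝ → X → X) : Prop :=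
  ∀ A : Set X, MeasurableSet A → (∀ t, m (symmDiff (Φ t ⁻¹' A) A) = 0) → m A = 0 ∨ m A = 1

/-- Weak mixing: the product flow is ergodic for the product measure. -/
def FlowWeakMixing {X : Type} [MeasurableSpace X] (m : Measure X) (Φ : ℝ → X → X) : Prop :=
  FlowErgodic (m.prod m) (fun t p => (Φ t p.1, Φ t p.2))

end Vale.Agent.P099
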