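import Mathlib.Algebra.Lie.OfAssociative
import Mathlib.Algebra.Order.Archimedean.Real.Hom
import Mathlib.Algebra.Order.Quantale
import Mathlib.Algebra.Ring.IsFormallyReal
import Mathlib.Analysis.CStarAlgebra.Module.Constructions
import Mathlib.Analysis.Calculus.ContDiff.Convolution
import Mathlib.Analysis.Calculus.Deriv.Star
import Mathlib.Analysis.Calculus.FDeriv.Symmetric
import Mathlib.Analysis.Calculus.LineDeriv.IntegrationByParts
import Mathlib.Analysis.Complex.Angle
import Mathlib.Analysis.Complex.Isometry
import Mathlib.Analysis.Fourier.AddCircle
import Mathlib.Analysis.Normed.Affine.AddTorsorBases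
import Mathlib.Analysis.SpecialFunctions.SmoothTransition
import Mathlib.Computability.Reduce
import Mathlib.Geometry.Euclidean.Angle.Unoriented.Affine
import Mathlib.MeasureTheory.Integral.IntervalIntegral.LebesgueDifferentiationThm
import Mathlib.MeasureTheory.Measure.RegularityCompacts
import Mathlib.MeasureTheory.Order.Group.Lattice
import Mathlib.Order.CompletePartialOrder
import Mathlib.RingTheory.PicardGroup
import Mathlib.RingTheory.SimpleRing.Principal
import Mathlib.Tactic
import Mathlib.Topology.Algebra.ProperAction.Basic
import Mathlib.Topology.UniformSpace.Uniformizable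

/-! The part of Mathlib that the development of this folder uses. -/
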